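import Vale.Agent.P370Z.VALID.Solve

/-!
# P370: the instance is valid
-/

namespace Vale.Agent.P370Z

open MeasureTheory Finset

namespace VALID

variable {c : Cst} {d : CD} {CF : ℝ}

/-- undisplaced coordinate in the first two directions -/
noncomputable def xa (c : Cst) (d : CD) (n : ℕ) : ℚ := xi (c.m d) (c.L d) n

/-- undisplaced coordinate in the third direction -/
noncomputable def xb (c : Cst) (d : CD) (n : ℕ) : ℚ := xi (c.m d) (c.Lz d) n

noncomputable def s0 (c : Cst) (d : CD) (n0 n1 n2 : ℕ) : ℚ :=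
  solve (c.Del d) (fun x => x + c.dF d 0 x (xa c d n1) (xb c d n2) / c.rho) (xa c d n0)

noncomputable def s1 (c : Cst) (d : CD) (n0 n1 n2 : ℕ) : ℚ :=
  solve (c.Del d) (fun x => x + c.dF d 1 (xa c d n0) x (xb c d n2) / c.rho) (xa c d n1)

noncomputable def s2 (c : Cst) (d : CD) (n0 n1 n2 : ℕ) : ℚ :=
  solve (c.Del d) (fun x => x + c.dF d 2 (xa c d n0) (xa c d n1) x / c.rho) (xb c d n2)

theorem node0 (n0 n1 n2 : ℕ) :
    c.node d 0 n0 n1 n2 = (s0 c d n0 n1 n2, xa c d n1, xb c d n2) := by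
  simp only [Cst.node, s0, xa, xb, if_true, zero_ne_one, OfNat.zero_ne_ofNat, if_false,
    Nat.cast_zero, zero_div, add_zero]

theorem node1 (n0 n1 n2 : ℕ) : c.node d 1 n0 n1 n2 =
    (xa c d n0 + ((1 : ℕ) : ℚ) / (4 * c.Del d), s1 c d n0 n1 n2, xb c d n2) := rfl

theorem node2 (n0 n1 n2 : ℕ) : c.node d 2 n0 n1 n2 =
    (xa c d n0 + ((2 : ℕ) : ℚ) / (4 * c.Del d), xa c d n1, s2 c d n0 n1 n2) := rfl

theorem s0_spec (h : Hyp c d CF) (n0 n1 n2 : ℕ) :
    |(s0 c d n0 n1 n2 : ℝ) + pd 0 (c.Ff d) ![s0 c d n0 n1 n2, xa c d n1, xb c d n2] / c.rho -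
      xa c d n0| ≤ 2 / c.Del d ∧ ∃ j : ℤ, s0 c d n0 n1 n2 = xa c d n0 + j / c.Del d := by
  have h1 := solve_pd h 0 ![0, xa c d n1, xb c d n2]
    (fun x => x + c.dF d 0 x (xa c d n1) (xb c d n2) / c.rho)
    (fun q => by simp [dF_cast]) (xa c d n0)
  have e : ∀ s : ℝ, Function.update (![0, xa c d n1, xb c d n2] : P3) 0 s =
      ![s, xa c d n1, xb c d n2] := fun s => by
    ext k
    fin_cases k <;> simp
  rw [e] at h1
  exact h1

theorem s1_spec (h : Hyp c d CF) (n0 n1 n2 : ℕ) :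
    |(s1 c d n0 n1 n2 : ℝ) + pd 1 (c.Ff d) ![xa c d n0, s1 c d n0 n1 n2, xb c d n2] / c.rho -
      xa c d n1| ≤ 2 / c.Del d ∧ ∃ j : ℤ, s1 c d n0 n1 n2 = xa c d n1 + j / c.Del d := by
  have h1 := solve_pd h 1 ![xa c d n0, 0, xb c d n2]
    (fun x => x + c.dF d 1 (xa c d n0) x (xb c d n2) / c.rho)
    (fun q => by simp [dF_cast]) (xa c d n1)
  have e : ∀ s : ℝ, Function.update (![xa c d n0, 0, xb c d n2] : P3) 1 s =
      (![xa c d n0, s, xb c d n2] : P3) := fun s => by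
    ext k
    fin_cases k <;> simp
  rw [e] at h1
  exact h1

theorem s2_spec (h : Hyp c d CF) (n0 n1 n2 : ℕ) :
    |(s2 c d n0 n1 n2 : ℝ) + pd 2 (c.Ff d) ![xa c d n0, xa c d n1, s2 c d n0 n1 n2] / c.rho -
      xb c d n2| ≤ 2 / c.Del d ∧ ∃ j : ℤ, s2 c d n0 n1 n2 = xb c d n2 + j / c.Del d := by
  have h1 := solve_pd h 2 ![xa c d n0, xa c d n1, 0]
    (fun x => x + c.dF d 2 (xa c d n0) (xa c d n1) x / c.rho)
    (fun q => by simp [dF_cast]) (xb c d n2)
  have e : ∀ s : ℝ, Function.update (![xa c d n0, xa c d n1, 0] : P3) 2 s =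
      (![xa c d n0, xa c d n1, s] : P3) := fun s => by
    ext k
    fin_cases k <;> simp
  rw [e] at h1
  exact h1

theorem nodesOK (h : Hyp c d CF) :
    NodesOK (c.m d) c.rho (c.lv d) (c.Ff d) (c.yv d) (2 / c.Del d) := by
  have hD : (0 : ℝ) < c.Del d := by exact_mod_cast del_pos c d h.hk
  have ea : ∀ n, ((xa c d n : ℚ) : ℝ) = xi (c.m d) (c.L d) n := fun n => xi_cast _ _ _
  have eb : ∀ n, ((xb c d n : ℚ) : ℝ) = xi (c.m d) (c.Lz d) n := fun n => xi_cast _ _ _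
  have h0 : (0 : ℝ) ≤ 2 / c.Del d := by positivity
  have h1 : |(1 : ℝ) / (4 * c.Del d)| ≤ 2 / c.Del d := by
    rw [abs_of_pos (by positivity), div_le_div_iff₀ (by positivity) hD]
    linarith
  have h2 : |(2 : ℝ) / (4 * c.Del d)| ≤ 2 / c.Del d := by
    rw [abs_of_pos (by positivity), div_le_div_iff₀ (by positivity) hD]
    linarith
  intro i n _
  fin_cases i
  · refine ⟨fun k hk => ?_, ?_⟩
    · fin_cases k
      · exact absurd rfl hk
      · simpa [Cst.yv, node0, pt, Cst.lv, ea] using h0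
      · simpa [Cst.yv, node0, pt, Cst.lv, eb] using h0
    · have e : Function.update (fun k => (xi (c.m d) (c.lv d k) (n k) : ℝ)) 0 (c.yv d 0 n 0) =
          (![s0 c d (n 0) (n 1) (n 2), xa c d (n 1), xb c d (n 2)] : P3) := by
        ext k
        fin_cases k <;> simp [Cst.yv, node0, pt, Cst.lv, ea, eb]
      have e0 : (s0 c d (n 0) (n 1) (n 2) : ℝ) = c.yv d 0 n 0 := by simp [Cst.yv, node0, pt]
      have h3 := (s0_spec h (n 0) (n 1) (n 2)).1
      rw [← e, ea, e0] at h3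
      exact h3
  · refine ⟨fun k hk => ?_, ?_⟩
    · fin_cases k
      · simpa [Cst.yv, node1, pt, Cst.lv, ea] using h1
      · exact absurd rfl hk
      · simpa [Cst.yv, node1, pt, Cst.lv, eb] using h0
    · have e : Function.update (fun k => (xi (c.m d) (c.lv d k) (n k) : ℝ)) 1 (c.yv d 1 n 1) =
          (![xa c d (n 0), s1 c d (n 0) (n 1) (n 2), xb c d (n 2)] : P3) := by
        ext k
        fin_cases k <;> simp [Cst.yv, node1, pt, Cst.lv, ea, eb]
      have h3 := (s1_spec h (n 0) (n 1) (n 2)).1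
      rw [← e, ea] at h3
      exact h3
  · refine ⟨fun k hk => ?_, ?_⟩
    · fin_cases k
      · simpa [Cst.yv, node2, pt, Cst.lv, ea] using h2
      · simpa [Cst.yv, node2, pt, Cst.lv, ea] using h0
      · exact absurd rfl hk
    · have e : Function.update (fun k => (xi (c.m d) (c.lv d k) (n k) : ℝ)) 2 (c.yv d 2 n 2) =
          (![xa c d (n 0), xa c d (n 1), s2 c d (n 0) (n 1) (n 2)] : P3) := by
        ext k
        fin_cases k <;> simp [Cst.yv, node2, pt, Cst.lv, ea]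
      have h3 := (s2_spec h (n 0) (n 1) (n 2)).1
      rw [← e, eb] at h3
      exact h3

/-! ### distinct positions -/

theorem xi_inj {m l n n' : ℕ} (hm : 0 < m) (h : (xi m l n : ℚ) = xi m l n') : n = n' := by
  have hm' : (6 * m : ℚ) ≠ 0 := by positivity
  simp only [xi, add_right_inj, div_left_inj' hm'] at h
  have : (n : ℚ) = n' := by linarith
  exact_mod_cast this

theorem xi_close (hk : 1 ≤ c.kk) {l n n' : ℕ} {t : ℝ}
    (h : |t - (xi (c.m d) l n : ℚ)| ≤ 2 / c.Del d)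
    (h' : |t - (xi (c.m d) l n' : ℚ)| ≤ 2 / c.Del d) : n = n' := by
  obtain ⟨Q, hQ, e⟩ := del_eq c d hk
  have hm : (0 : ℝ) < c.m d := by exact_mod_cast m_pos c d
  have hQ' : (4 : ℝ) ≤ Q := by exact_mod_cast hQ
  have h1 : (2 : ℝ) / c.Del d ≤ 1 / 2 * (1 / (6 * c.m d)) := by
    rw [e, one_div_mul_one_div]
    push_cast
    rw [div_le_div_iff₀ (by positivity) (by positivity)]
    nlinarith
  rw [xi_cast, xi, div_eq_mul_one_div] at h h'
  have hu : (0 : ℝ) < 1 / (6 * c.m d) := by positivity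
  set u : ℝ := 1 / (6 * c.m d)
  have a := abs_le.1 (h.trans h1)
  have b := abs_le.1 (h'.trans h1)
  have a1 : (n : ℝ) < n' + 1 := by
    by_contra hc
    have := mul_le_mul_of_nonneg_right (not_lt.1 hc) hu.le
    linarith [a.1, b.2]
  have a2 : (n' : ℝ) < n + 1 := by
    by_contra hc
    have := mul_le_mul_of_nonneg_right (not_lt.1 hc) hu.le
    linarith [a.2, b.1]
  have a3 : n < n' + 1 := by exact_mod_cast a1
  have a4 : n' < n + 1 := by exact_mod_cast a2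
  omega

theorem first_coord (h : Hyp c d CF) {i : ℕ} (hi : i < 3) (n0 n1 n2 : ℕ) :
    ∃ z : ℤ, 4 * (c.Del d : ℚ) * (c.node d i n0 n1 n2).1 = (4 * z + i : ℤ) := by
  obtain ⟨Q, hQ, e⟩ := del_eq c d h.hk
  have hm : (c.m d : ℚ) ≠ 0 := by exact_mod_cast (m_pos c d).ne'
  have hD : (c.Del d : ℚ) ≠ 0 := by exact_mod_cast Nat.one_le_iff_ne_zero.1 (del_pos c d h.hk)
  have e1 : (c.Del d : ℚ) * xa c d n0 = (-(c.L d : ℤ) * c.Del d + (2 * n0 + 1) * Q : ℤ) := by
    rw [xa, xi, e]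
    push_cast
    field_simp
  have e2 : ∀ j : ℕ, 4 * (c.Del d : ℚ) * (xa c d n0 + (j : ℚ) / (4 * c.Del d)) =
      (4 * (-(c.L d : ℤ) * c.Del d + (2 * n0 + 1) * Q) + j : ℤ) := by
    intro j
    rw [Int.cast_add, Int.cast_mul, ← e1]
    push_cast
    field_simp
  interval_cases i
  · obtain ⟨j, hj⟩ := (s0_spec h n0 n1 n2).2
    refine ⟨-(c.L d : ℤ) * c.Del d + (2 * n0 + 1) * Q + j, ?_⟩
    rw [node0, hj, Int.cast_add, Int.cast_mul, Int.cast_add, ← e1]
    push_cast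
    field_simp
    ring
  · exact ⟨_, e2 1⟩
  · exact ⟨_, e2 2⟩

theorem node_inj (h : Hyp c d CF) {i i' n0 n1 n2 k0 k1 k2 : ℕ} (hi : i < 3) (hi' : i' < 3)
    (e : c.node d i n0 n1 n2 = c.node d i' k0 k1 k2) : i = i' ∧ n0 = k0 ∧ n1 = k1 ∧ n2 = k2 := by
  obtain ⟨z, hz⟩ := first_coord h hi n0 n1 n2
  obtain ⟨z', hz'⟩ := first_coord h hi' k0 k1 k2
  rw [e, hz', Int.cast_inj] at hz
  obtain rfl : i = i' := by omega
  have hm := m_pos c d
  refine ⟨rfl, ?_⟩
  interval_cases i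
  · rw [node0, node0, Prod.mk.injEq, Prod.mk.injEq] at e
    obtain rfl : n1 = k1 := xi_inj hm e.2.1
    obtain rfl : n2 = k2 := xi_inj hm e.2.2
    have a := (s0_spec h n0 n1 n2).1
    rw [e.1] at a
    exact ⟨xi_close h.hk a (s0_spec h k0 n1 n2).1, rfl, rfl⟩
  · rw [node1, node1, Prod.mk.injEq, Prod.mk.injEq, add_left_inj] at e
    obtain rfl : n0 = k0 := xi_inj hm e.1
    obtain rfl : n2 = k2 := xi_inj hm e.2.2
    have a := (s1_spec h n0 n1 n2).1
    rw [e.2.1] at a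
    exact ⟨rfl, xi_close h.hk a (s1_spec h n0 k1 n2).1, rfl⟩
  · rw [node2, node2, Prod.mk.injEq, Prod.mk.injEq, add_left_inj] at e
    obtain rfl : n0 = k0 := xi_inj hm e.1
    obtain rfl : n1 = k1 := xi_inj hm e.2.1
    have a := (s2_spec h n0 n1 n2).1
    rw [e.2.2] at a
    exact ⟨rfl, rfl, xi_close h.hk a (s2_spec h n0 n1 k2).1⟩

theorem nuclei_eq : c.nuclei d = (List.range 3 ×ˢ List.range (6 * c.m d * c.L d) ×ˢ
    List.range (6 * c.m d * c.L d) ×ˢ List.range (6 * c.m d * c.Lz d)).map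
      fun t => c.nucleus d t.1 t.2.1 t.2.2.1 t.2.2.2 := by
  simp only [Cst.nuclei, SProd.sprod, List.product, List.map_flatMap, List.map_map]
  rfl

theorem lam_pos (hom : 1 ≤ c.om) (hp : 1 / 16 ≤ c.pH d) : 0 < c.lam d := by
  have h1 : (0 : ℚ) < c.pH d := by linarith
  have h2 : (0 : ℚ) < c.rho := by exact_mod_cast rho_pos hom
  have h3 : (0 : ℚ) < c.m d := by exact_mod_cast m_pos c d
  unfold Cst.lam
  positivity

theorem nodup (h : Hyp c d CF) (hp : 1 / 16 ≤ c.pH d) : ((c.nuclei d).map Prod.fst).Nodup := by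
  have hl := (lam_pos h.hom hp).ne'
  rw [nuclei_eq, List.map_map]
  refine List.Nodup.map_on ?_ (List.nodup_range.product (List.nodup_range.product
    (List.nodup_range.product List.nodup_range)))
  rintro ⟨i, n0, n1, n2⟩ hx ⟨i', k0, k1, k2⟩ hy e
  have hi := List.mem_range.1 (List.mem_product.1 hx).1
  have hi' := List.mem_range.1 (List.mem_product.1 hy).1
  simp only [Function.comp, Cst.nucleus, Prod.mk.injEq, div_left_inj' hl] at e
  obtain ⟨a, b, f, g⟩ := node_inj h hi hi' (Prod.ext e.1 (Prod.ext e.2.1 e.2.2))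
  rw [a, b, f, g]

theorem nuclei_ne : c.nuclei d ≠ [] := by
  have h := four_le_p c d
  have hm := m_pos c d
  have hL : 0 < c.L d := Nat.pow_pos (by omega)
  have hz : 0 < c.Lz d := by unfold Cst.Lz; omega
  rw [nuclei_eq]
  refine List.ne_nil_of_mem (List.mem_map_of_mem (a := (0, 0, 0, 0)) ?_)
  simp only [List.mem_product, List.mem_range]
  have h6 : 0 < 6 * c.m d := by omega
  exact ⟨by omega, Nat.mul_pos h6 hL, Nat.mul_pos h6 hL, Nat.mul_pos h6 hz⟩

theorem charge_pos : ∀ n ∈ c.nuclei d, 1 ≤ n.2 := by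
  intro n hn
  rw [nuclei_eq] at hn
  obtain ⟨t, -, rfl⟩ := List.mem_map.1 hn
  have h : ∀ n, 0 < wt n := fun n => by
    unfold wt
    split_ifs <;> omega
  exact Nat.mul_pos (Nat.mul_pos (h _) (h _)) (h _)

/-! ### the gap -/

theorem SS_le : d.SS ≤ c.p d :=
  calc d.SS ≤ 2 ^ Nat.size d.SS := (Nat.lt_size_self _).le
    _ ≤ 4 ^ Nat.size d.SS := Nat.pow_le_pow_left (by norm_num) _
    _ ≤ 4 ^ c.gp d := Nat.pow_le_pow_right (by norm_num) (Nat.le_add_right _ _)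

theorem gap_arith {P A M r h w u t : ℚ} (E : ℚ) (h4 : 4 ≤ P) (hr0 : 0 < r) (hr : r ≤ P)
    (hp1 : 1 / 16 ≤ h) (hp2 : h ≤ 1) (w0 : 0 < w) (w1 : w ≤ 2 * P) (u0 : 0 < u) (u1 : u ≤ P)
    (t0 : 0 < t) (t1 : t ≤ 3 * P) (hA : 0 < A) (hm : A * P ^ 9 ≤ M) :
    1 ≤ (512 * M / (h * r)) ^ 2 *
        (E + 37 / 100 * ((9 / (68 * w)) ^ 2 / (512 * M / (h * r) * A * u ^ 2 * t))) -
      (512 * M / (h * r)) ^ 2 *
        (E + 29 / 100 * ((9 / (68 * w)) ^ 2 / (512 * M / (h * r) * A * u ^ 2 * t))) := by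
  have P0 : 0 < P := by linarith
  have hlam : 512 * A * P ^ 8 ≤ 512 * M / (h * r) := by
    rw [le_div_iff₀ (mul_pos (by linarith) hr0)]
    have a : h * r ≤ P := by nlinarith
    calc 512 * A * P ^ 8 * (h * r) ≤ 512 * A * P ^ 8 * P :=
          mul_le_mul_of_nonneg_left a (by positivity)
      _ = 512 * (A * P ^ 9) := by ring
      _ ≤ _ := by linarith
  generalize 512 * M / (h * r) = lam at hlam
  have hl : 0 < lam := lt_of_lt_of_le (by positivity) hlam
  have e : lam ^ 2 * (E + 37 / 100 * ((9 / (68 * w)) ^ 2 / (lam * A * u ^ 2 * t))) -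
      lam ^ 2 * (E + 29 / 100 * ((9 / (68 * w)) ^ 2 / (lam * A * u ^ 2 * t))) =
      8 / 100 * 81 * lam / ((68 * w) ^ 2 * A * u ^ 2 * t) := by
    field_simp
    ring
  rw [e, le_div_iff₀ (by positivity), one_mul]
  have b : P ^ 5 * 64 ≤ P ^ 8 := by
    have : (4 : ℚ) ^ 3 ≤ P ^ 3 := pow_le_pow_left₀ (by norm_num) h4 3
    calc P ^ 5 * 64 ≤ P ^ 5 * P ^ 3 := mul_le_mul_of_nonneg_left (by linarith) (by positivity)
      _ = P ^ 8 := by ring
  calc (68 * w) ^ 2 * A * u ^ 2 * t ≤ (68 * (2 * P)) ^ 2 * A * P ^ 2 * (3 * P) := by gcongr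
    _ = 867 * A * (P ^ 5 * 64) := by ring
    _ ≤ 867 * A * P ^ 8 := by gcongr
    _ ≤ 8 / 100 * 81 * (512 * A * P ^ 8) := by
      have : 0 ≤ A * P ^ 8 := by positivity
      linarith
    _ ≤ _ := by gcongr

theorem gap_one (hom : 1 ≤ c.om) (hg : c.rho ≤ 4 ^ c.g0) (hp1 : 1 / 16 ≤ c.pH d)
    (hp2 : c.pH d ≤ 1) : 1 ≤ (c.inst d).b - (c.inst d).a := by
  have hS := SS_le (c := c) (d := d)
  have h4 : (4 : ℚ) ≤ c.p d := by exact_mod_cast four_le_p c d
  have hr : (c.rho : ℚ) ≤ c.p d := by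
    exact_mod_cast hg.trans (Nat.pow_le_pow_right (by norm_num) (Nat.le_add_left _ _))
  have hr0 : (0 : ℚ) < c.rho := by exact_mod_cast rho_pos hom
  have w0 : (0 : ℚ) < nW d.nE d.nD := by
    have : 0 < nW d.nE d.nD := by unfold nW; omega
    exact_mod_cast this
  have w1 : (nW d.nE d.nD : ℚ) ≤ 2 * c.p d := by
    have : nW d.nE d.nD ≤ 2 * c.p d := by
      unfold nW
      unfold CD.SS at hS
      omega
    exact_mod_cast this
  have u0 : (0 : ℚ) < d.nu := by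
    have : 0 < d.nu := Nat.pow_pos (by unfold CD.nu0; omega)
    exact_mod_cast this
  have u1 : (d.nu : ℚ) ≤ c.p d := by
    have : d.nu ≤ c.p d := by
      unfold CD.SS at hS
      omega
    exact_mod_cast this
  have t1 : (3 * d.nT + 1 : ℚ) ≤ 3 * c.p d := by
    have : 3 * d.nT + 1 ≤ 3 * c.p d := by
      unfold CD.SS at hS
      omega
    exact_mod_cast this
  have hm : (c.p d : ℚ) ^ (c.k1 + 1) * (c.p d : ℚ) ^ 9 ≤ (c.m d : ℚ) ^ 3 := by
    rw [Cst.m, Nat.cast_pow, ← pow_mul, ← pow_add]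
    refine pow_le_pow_right₀ (by linarith) ?_
    have : c.kk + 1 ≤ (c.kk + 1) ^ 3 := Nat.le_self_pow (by norm_num) _
    unfold Cst.k1 Cst.km
    omega
  exact gap_arith (c.ebase d) h4 hr0 hr hp1 hp2 w0 w1 u0 u1 (by positivity) t1
    (pow_pos (by linarith) _) hm

theorem code_pos (I : Instance) : 1 ≤ I.code.length := by
  have h : ∀ x y : Word, 1 ≤ (pairW x y).length := fun x y => by
    cases x <;> simp [pairW]
  exact h _ _

/-! ### the potential -/

theorem sum_product {α β : Type} (l : List α) (l' : List β) (f : α × β → ℝ) :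
    ((l ×ˢ l').map f).sum = (l.map fun a => (l'.map fun b => f (a, b)).sum).sum := by
  induction l with
  | nil => simp
  | cons a l ih => simp [List.product_cons, ih, Function.comp_def]

theorem sum_range (n : ℕ) (f : ℕ → ℝ) : ((List.range n).map f).sum = ∑ i ∈ range n, f i := by
  induction n with
  | zero => simp
  | succ n ih => rw [List.range_succ, sum_range_succ]; simp [ih]

theorem sum_nodes (m : ℕ) (l : Fin 3 → ℕ) (f : ℕ → ℕ → ℕ → ℝ) :
    ∑ n ∈ nodes m l, f (n 0) (n 1) (n 2) = ∑ a ∈ range (6 * m * l 0), ∑ b ∈ range (6 * m * l 1),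
      ∑ e ∈ range (6 * m * l 2), f a b e := by
  simp only [← sum_product']
  refine sum_nbij' (fun n => (n 0, n 1, n 2)) (fun t => ![t.1, t.2.1, t.2.2]) ?_ ?_ ?_ ?_ ?_
  · intro n hn
    simp only [nodes, Fintype.mem_piFinset] at hn
    simp only [mem_product]
    exact ⟨hn 0, hn 1, hn 2⟩
  · intro t ht
    simp only [mem_product] at ht
    simp only [nodes, Fintype.mem_piFinset]
    intro k
    fin_cases k
    exacts [ht.1, ht.2.1, ht.2.2]
  · intro n _
    ext k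
    fin_cases k <;> rfl
  · intro t _
    rfl
  · intro n _
    rfl

theorem scPot_eq (hom : 1 ≤ c.om) (hp : 1 / 16 ≤ c.pH d) (x : P3) :
    scPot (c.inst d) (c.lam d) x =
      -(c.pH d : ℝ) * nuD (c.m d) c.rho (c.lv d) (c.yv d) (fun t => 1 / nrm (x - t)) := by
  have hl : (c.lam d : ℝ) ≠ 0 := by exact_mod_cast (lam_pos hom hp).ne'
  have key : ∀ i a b e : ℕ, ((c.nucleus d i a b e).2 : ℝ) / c.lam d /
      nrm (x - (c.lam d : ℝ) • pt (c.nucleus d i a b e).1) = c.pH d *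
        ((c.rho : ℝ) / (512 * (c.m d : ℝ) ^ 3) * ((wt a * wt b * wt e : ℕ) : ℝ) *
          (1 / nrm (x - pt (c.node d i a b e)))) := by
    intro i a b e
    have e1 : (c.lam d : ℝ) • pt (c.nucleus d i a b e).1 = pt (c.node d i a b e) := by
      ext k
      fin_cases k <;> simp [pt, Cst.nucleus, mul_div_cancel₀ _ hl]
    rw [e1, Cst.nucleus, Cst.lam]
    push_cast
    rw [div_div_eq_mul_div]
    ring
  rw [scPot, Cst.inst, nuclei_eq, List.map_map, neg_mul, neg_inj]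
  simp only [sum_product, sum_range, Function.comp, key, ← mul_sum]
  congr 1
  rw [nuD, ← Fin.sum_univ_eq_sum_range (fun i => ∑ a ∈ range (6 * c.m d * c.L d),
    ∑ b ∈ range (6 * c.m d * c.L d), ∑ e ∈ range (6 * c.m d * c.Lz d),
      (c.rho : ℝ) / (512 * (c.m d : ℝ) ^ 3) * ((wt a * wt b * wt e : ℕ) : ℝ) *
        (1 / nrm (x - pt (c.node d i a b e)))) 3]
  refine sum_congr rfl fun i _ => ?_
  simp only [Fin.prod_univ_three, Cst.yv]
  exact (sum_nodes (c.m d) (c.lv d) fun a b e => (c.rho : ℝ) / (512 * (c.m d : ℝ) ^ 3) *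
    ((wt a * wt b * wt e : ℕ) : ℝ) * (1 / nrm (x - pt (c.node d i a b e)))).symm

end VALID

theorem valid (c : Cst) (d : CD) (CF : ℝ) (hom : 1 ≤ c.om) (hk : 1 ≤ c.kk)
    (hg : c.rho ≤ 4 ^ c.g0) (hρ : 2 * CF ≤ c.rho) (hF : BdM 6 CF (c.Ff d))
    (hd : ∀ (i : Fin 3) (x : P3), pd i (c.Ff d) x =
      dF0 (c.chain d) (c.wr d) c.H (2 * c.L1 d) i (x 0) (x 1) (x 2))
    (hp1 : 1 / 16 ≤ c.pH d) (hp2 : c.pH d ≤ 1) :
    (c.inst d).Valid ∧ (∀ e : ℕ, (c.inst d).Gap e) ∧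
    NodesOK (c.m d) c.rho (c.lv d) (c.Ff d) (c.yv d) (2 / c.Del d) ∧
    ∀ x, scPot (c.inst d) (c.lam d) x =
      -(c.pH d : ℝ) * nuD (c.m d) c.rho (c.lv d) (c.yv d) (fun t => 1 / nrm (x - t)) := by
  have h : VALID.Hyp c d CF := ⟨hom, hk, hρ, hF, hd⟩
  have h1 := VALID.gap_one hom hg hp1 hp2
  refine ⟨⟨VALID.nuclei_ne, VALID.nodup h hp1, VALID.charge_pos, ?_, by linarith⟩, fun e => ?_,
    VALID.nodesOK h, VALID.scPot_eq hom hp1⟩
  · show 1 ≤ d.NN
    unfold CD.NN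
    omega
  · refine le_trans ?_ h1
    have h2 : (1 : ℚ) ≤ (c.inst d).code.length := Nat.one_le_cast.2 (VALID.code_pos _)
    exact div_le_one_of_le₀ (one_le_pow₀ h2) (pow_nonneg (Nat.cast_nonneg _) _)

end Vale.Agent.P370Z
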