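import Vale.Agent.P370Z.SM.Main

/-!
# P370: the displaced nodes
-/

namespace Vale.Agent.P370Z

open MeasureTheory Finset

namespace VALID

theorem tw_spec {α : Type} (P : α → Bool) (l : List α) :
    (∀ (j : ℕ) (h : j < l.length), j < (l.takeWhile P).length → P l[j] = true) ∧
      ∀ h : (l.takeWhile P).length < l.length, P l[(l.takeWhile P).length] = false := by
  induction l with
  | nil => simp
  | cons a l ih =>
    cases ha : P a
    · simp [ha]
    · simp only [List.takeWhile_cons, ha, if_true, List.length_cons, List.getElem_cons_succ]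
      refine ⟨fun j h hj => ?_, fun h => ih.2 (by omega)⟩
      cases j with
      | zero => exact ha
      | succ j => exact ih.1 j (by omega) (by omega)

theorem tw_range (P : ℕ → Bool) (n : ℕ) (h0 : P 0 = true) (h1 : P n = false) :
    ∃ k, ((List.range (n + 1)).takeWhile P).length = k + 1 ∧ P k = true ∧ P (k + 1) = false := by
  obtain ⟨a, b⟩ := tw_spec P (List.range (n + 1))
  simp only [List.length_range, List.getElem_range] at a b
  generalize ((List.range (n + 1)).takeWhile P).length = k at a b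
  have h2 : k < n + 1 := by
    by_contra h
    rw [a n (by omega) (by omega)] at h1
    exact absurd h1 (by simp)
  cases k with
  | zero =>
    rw [b h2] at h0
    exact absurd h0 (by simp)
  | succ k => exact ⟨k, rfl, a k (by omega) (by omega), b h2⟩

end VALID

theorem solve_spec (Δ : ℕ) (hΔ : 1 ≤ Δ) (φ : ℚ → ℚ) (Φ : ℝ → ℝ) (hφ : ∀ q : ℚ, (φ q : ℝ) = Φ q)
    (h1 : ∀ x, |Φ x - x| ≤ 1 / 2) (h2 : ∀ x y, |Φ x - Φ y| ≤ 3 / 2 * |x - y|) (ξ : ℚ) :
    |Φ (solve Δ φ ξ) - ξ| ≤ 2 / Δ ∧ ∃ j : ℤ, solve Δ φ ξ = ξ + j / Δ := by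
  have hD : (0 : ℝ) < Δ := by exact_mod_cast hΔ
  have key : ∀ j : ℕ, φ (ξ + ((j : ℚ) - Δ) / Δ) ≤ ξ ↔ Φ (ξ + ((j : ℝ) - Δ) / Δ) ≤ ξ := by
    intro j
    rw [← Rat.cast_le (K := ℝ), hφ]
    push_cast
    rfl
  obtain ⟨k, e, a, b⟩ := VALID.tw_range
    (fun j : ℕ => decide (φ (ξ + ((j : ℚ) - Δ) / Δ) ≤ ξ)) (2 * Δ) (by
      rw [decide_eq_true_eq, key]
      have e : (((0 : ℕ) : ℝ) - Δ) / Δ = -1 := by
        field_simp
        simp
      rw [e]
      linarith [(abs_le.1 (h1 (ξ + -1))).2]) (by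
      rw [decide_eq_false_iff_not, key]
      have e : (((2 * Δ : ℕ) : ℝ) - Δ) / Δ = 1 := by
        push_cast
        field_simp
        ring
      rw [e]
      linarith [(abs_le.1 (h1 (ξ + 1))).1])
  rw [decide_eq_true_eq, key] at a
  rw [decide_eq_false_iff_not, key] at b
  have e1 : solve Δ φ ξ = ξ + (((k + 1 : ℕ) : ℚ) - Δ) / Δ := by rw [solve, e]
  refine ⟨?_, (k + 1 : ℕ) - Δ, by rw [e1]; push_cast; rfl⟩
  have e2 : ((solve Δ φ ξ : ℚ) : ℝ) = ξ + (((k + 1 : ℕ) : ℝ) - Δ) / Δ := by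
    rw [e1]
    push_cast
    rfl
  have h3 := h2 (ξ + (((k + 1 : ℕ) : ℝ) - Δ) / Δ) (ξ + ((k : ℝ) - Δ) / Δ)
  have e3 : ξ + (((k + 1 : ℕ) : ℝ) - Δ) / Δ - (ξ + ((k : ℝ) - Δ) / Δ) = 1 / Δ := by
    push_cast
    ring
  have h4 : (0 : ℝ) < 1 / Δ := by positivity
  rw [e3, abs_of_pos h4] at h3
  have e4 : (2 : ℝ) / Δ = 2 * (1 / Δ) := by ring
  rw [e2, e4, abs_le]
  constructor <;> linarith [(abs_le.1 h3).2]

namespace VALID

theorem xi_cast (m l n : ℕ) : ((xi m l n : ℚ) : ℝ) = xi m l n := by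
  simp [xi]

variable (c : Cst) (d : CD)

theorem four_le_p : 4 ≤ c.p d := by
  have h : 0 < Nat.size d.SS := Nat.size_pos.2 (by unfold CD.SS; omega)
  calc 4 = 4 ^ 1 := rfl
    _ ≤ 4 ^ c.gp d := Nat.pow_le_pow_right (by norm_num) (by unfold Cst.gp; omega)

theorem m_pos : 0 < c.m d := Nat.pow_pos (by have := four_le_p c d; omega)

theorem del_eq (hk : 1 ≤ c.kk) : ∃ Q : ℕ, 4 ≤ Q ∧ c.Del d = 6 * c.m d * Q := by
  refine ⟨_, ?_, rfl⟩
  have h := four_le_p c d
  calc 4 ≤ c.p d ^ 1 := by simpa using h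
    _ ≤ _ := Nat.pow_le_pow_right (by omega) (Nat.mul_pos (by omega) hk)

theorem del_pos (hk : 1 ≤ c.kk) : 1 ≤ c.Del d := by
  obtain ⟨Q, h, e⟩ := del_eq c d hk
  have := m_pos c d
  rw [e]
  exact Nat.mul_pos (by omega) (by omega)

/-- the data used for the displaced coordinate -/
structure Hyp (CF : ℝ) : Prop where
  hom : 1 ≤ c.om
  hk : 1 ≤ c.kk
  hρ : 2 * CF ≤ c.rho
  hF : BdM 6 CF (c.Ff d)
  hd : ∀ (i : Fin 3) (x : P3), pd i (c.Ff d) x =
    dF0 (c.chain d) (c.wr d) c.H (2 * c.L1 d) i (x 0) (x 1) (x 2)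

variable {c d}

theorem rho_pos (h : 1 ≤ c.om) : 0 < c.rho := by
  unfold Cst.rho
  positivity

theorem solve_pd {CF : ℝ} (h : Hyp c d CF) (i : Fin 3) (b : P3) (φ : ℚ → ℚ)
    (hφ : ∀ q : ℚ, (φ q : ℝ) = q + dF0 (c.chain d) (c.wr d) c.H (2 * c.L1 d) i
      (Function.update b i q 0) (Function.update b i q 1) (Function.update b i q 2) / c.rho)
    (ξ : ℚ) :
    |(solve (c.Del d) φ ξ : ℚ) +
      pd i (c.Ff d) (Function.update b i (solve (c.Del d) φ ξ : ℚ)) / c.rho - ξ| ≤ 2 / c.Del d ∧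
      ∃ j : ℤ, solve (c.Del d) φ ξ = ξ + j / c.Del d := by
  have hr : (0 : ℝ) < c.rho := by exact_mod_cast rho_pos h.hom
  have hC : CF / c.rho ≤ 1 / 2 := by
    rw [div_le_iff₀ hr]
    linarith [h.hρ]
  refine solve_spec _ (del_pos c d h.hk) φ
    (fun x => x + pd i (c.Ff d) (Function.update b i x) / c.rho) (fun q => ?_) (fun x => ?_)
    (fun x y => ?_) ξ
  · rw [hφ, h.hd]
  · rw [add_sub_cancel_left, abs_div, abs_of_pos hr]
    exact (div_le_div_of_nonneg_right ((h.hF.pd i).le _) hr.le).trans hC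
  · have h1 := (h.hF.pd i).lip_coord b i x y
    have e : x + pd i (c.Ff d) (Function.update b i x) / c.rho -
        (y + pd i (c.Ff d) (Function.update b i y) / c.rho) = (x - y) +
        (pd i (c.Ff d) (Function.update b i x) - pd i (c.Ff d) (Function.update b i y)) / c.rho := by
      ring
    rw [e]
    refine (abs_add_le _ _).trans ?_
    rw [abs_div, abs_of_pos hr]
    have h2 := div_le_div_of_nonneg_right h1 hr.le
    have h3 : CF * |x - y| / c.rho ≤ 1 / 2 * |x - y| := by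
      rw [mul_div_right_comm]
      exact mul_le_mul_of_nonneg_right hC (abs_nonneg _)
    linarith

theorem dF_cast (i : ℕ) (x y z : ℚ) : ((c.dF d i x y z : ℚ) : ℝ) =
    dF0 (c.chain d) (c.wr d) c.H (2 * c.L1 d) i (x : ℝ) (y : ℝ) (z : ℝ) :=
  dF0_cast _ _ _ _ _ _ _ _

end VALID

end Vale.Agent.P370Z
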